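import Vale.Agent.P054.T3.H398.Cnt

set_option autoImplicit false
set_option linter.all false

/-!
# P054 / T3 / H691: the count on flats with flags instead of edges

`W adj S` = number of flags `(s, ℓ)`: `s ∈ S`, `ℓ` a line through `s` which contains a point of `S`
adjacent to `s`.  `SF F` (`F ∈ 𝓕`) are cliques of `adj`, `cl` is a class map with at most `κ₀`
classes on each `SF F`.  By Szemerédi–Trotter inside `SF F ∩ c` most of the pairs give different
flags, hence `∑ |SF F|² ≤ C κ₀ ∑_c W (S ∩ c) + multiplicity terms`.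

* `sq_le_fl`, `sq_le_classes_fl` : one set;
* `cntW_near` : multiplicity term `∑ s, (L_s)²` (two flats through `s` share at most one line);
* `cntW` : multiplicity term absorbed (at most `m` shared lines of `F` through `s`).
-/

namespace Vale.Agent.P054.T3.H691

open Finset
open Vale.Agent.P054.T3.H109.Gen (onL lineC ln mem_ln card_ln st_pairs)

variable {V κ C : Type*} [AddCommGroup V] [Module ℝ V]

open scoped Classical in
/-- directions of the lines through `s` with another point of `A` -/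
noncomputable def dirs (A : Finset V) (s : V) : Finset (Submodule ℝ V) :=
  (A.filter fun r => r ≠ s).image fun r => Submodule.span ℝ {r - s}

theorem mem_dirs {A : Finset V} {s : V} {u : Submodule ℝ V} :
    u ∈ dirs A s ↔ ∃ r ∈ A, r ≠ s ∧ Submodule.span ℝ {r - s} = u := by
  classical
  unfold dirs
  rw [mem_image]
  constructor
  · rintro ⟨r, hr, h⟩
    rw [mem_filter] at hr
    exact ⟨r, hr.1, hr.2, h⟩
  · rintro ⟨r, hr, h1, h2⟩
    exact ⟨r, mem_filter.2 ⟨hr, h1⟩, h2⟩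

theorem dirs_mono {A B : Finset V} (h : A ⊆ B) (s : V) : dirs A s ⊆ dirs B s := by
  intro u hu
  obtain ⟨r, hr, h1, h2⟩ := mem_dirs.1 hu
  exact mem_dirs.2 ⟨r, h hr, h1, h2⟩

open scoped Classical in
/-- the directions of the flags at `s` -/
noncomputable def fdirs (adj : V → V → Prop) (S : Finset V) (s : V) : Finset (Submodule ℝ V) :=
  (S.filter (adj s)).image fun r => Submodule.span ℝ {r - s}

theorem mem_fdirs {adj : V → V → Prop} {A : Finset V} {s : V} {u : Submodule ℝ V} :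
    u ∈ fdirs adj A s ↔ ∃ r ∈ A, adj s r ∧ Submodule.span ℝ {r - s} = u := by
  classical
  unfold fdirs
  rw [mem_image]
  constructor
  · rintro ⟨r, hr, h⟩
    rw [mem_filter] at hr
    exact ⟨r, hr.1, hr.2, h⟩
  · rintro ⟨r, hr, h1, h2⟩
    exact ⟨r, mem_filter.2 ⟨hr, h1⟩, h2⟩

/-- the number of flags -/
noncomputable def W (adj : V → V → Prop) (S : Finset V) : ℕ := ∑ s ∈ S, (fdirs adj S s).card

/-- the number of flags of a clique -/
noncomputable def fl (A : Finset V) : ℕ := ∑ s ∈ A, (dirs A s).card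

theorem W_mono {adj : V → V → Prop} {S T : Finset V} (h : S ⊆ T) : W adj S ≤ W adj T := by
  classical
  unfold W
  refine (Finset.sum_le_sum fun s _ => ?_).trans (Finset.sum_le_sum_of_subset h)
  refine card_le_card ?_
  intro u hu
  obtain ⟨r, hr, h1, h2⟩ := mem_fdirs.1 hu
  exact mem_fdirs.2 ⟨r, h hr, h1, h2⟩

/-- two points with the same direction from `s` are on one line through `s` -/
theorem onL_of_span {s r r' : V} (hr : r ≠ s)
    (h : Submodule.span ℝ {r' - s} = Submodule.span ℝ {r - s}) : onL s r r' := by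
  have h1 : r' - s ∈ Submodule.span ℝ {r - s} := by
    rw [← h]
    exact Submodule.mem_span_singleton_self _
  obtain ⟨a, ha⟩ := Submodule.mem_span_singleton.1 h1
  exact ⟨a, by rw [ha]; abel⟩

theorem span_of_onL {s r r' : V} (hr' : r' ≠ s) (h : onL s r r') :
    Submodule.span ℝ {r' - s} = Submodule.span ℝ {r - s} := by
  obtain ⟨a, rfl⟩ := h
  have ha : a ≠ 0 := by
    rintro rfl
    apply hr'
    simp
  rw [add_sub_cancel_left]
  exact Submodule.span_singleton_smul_eq (isUnit_iff_ne_zero.2 ha) _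

open scoped Classical in
/-- poor pairs are at most `k` times the flags -/
theorem card_poor_le_fl (A : Finset V) (k : ℕ) :
    (A.offDiag.filter fun p => lineC A p.1 p.2 < k).card ≤ k * fl A := by
  unfold fl
  have h1 : (A.offDiag.filter fun p => lineC A p.1 p.2 < k).card =
      ∑ s ∈ A, ((A.offDiag.filter fun p => lineC A p.1 p.2 < k).filter fun p => p.1 = s).card := by
    refine Finset.card_eq_sum_card_fiberwise fun p hp => ?_
    exact mem_coe.2 (mem_offDiag.1 (mem_filter.1 (mem_coe.1 hp)).1).1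
  rw [h1, Finset.mul_sum]
  refine Finset.sum_le_sum fun s hs => ?_
  refine Finset.card_le_mul_card_image_of_maps_to
    (f := fun p : V × V => Submodule.span ℝ {p.2 - s}) ?_ k ?_
  · intro p hp
    obtain ⟨h2, rfl⟩ := mem_filter.1 hp
    have h3 := mem_offDiag.1 (mem_filter.1 h2).1
    exact mem_dirs.2 ⟨p.2, h3.2.1, Ne.symm h3.2.2, rfl⟩
  · intro u hu
    rcases ((A.offDiag.filter fun p => lineC A p.1 p.2 < k).filter fun p => p.1 = s).filter
      (fun p => Submodule.span ℝ {p.2 - s} = u) |>.eq_empty_or_nonempty with h0 | ⟨p₀, hp₀⟩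
    · rw [h0]; simp
    obtain ⟨h2, hu0⟩ := mem_filter.1 hp₀
    obtain ⟨h3, h4⟩ := mem_filter.1 h2
    obtain ⟨h5, h6⟩ := mem_filter.1 h3
    have h7 := mem_offDiag.1 h5
    calc (((A.offDiag.filter fun p => lineC A p.1 p.2 < k).filter fun p => p.1 = s).filter
          (fun p => Submodule.span ℝ {p.2 - s} = u)).card
        ≤ (ln A (s, p₀.2)).card := by
          refine Finset.card_le_card_of_injOn Prod.snd ?_ ?_
          · intro p hp
            obtain ⟨a2, au⟩ := mem_filter.1 (mem_coe.1 hp)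
            obtain ⟨a3, a4⟩ := mem_filter.1 a2
            have a7 := mem_offDiag.1 (mem_filter.1 a3).1
            rw [mem_coe, mem_ln]
            refine ⟨a7.2.1, onL_of_span ?_ (au.trans hu0.symm)⟩
            rw [← h4]; exact Ne.symm h7.2.2
          · intro p hp q hq hpq
            obtain ⟨a2, -⟩ := mem_filter.1 (mem_coe.1 hp)
            obtain ⟨b2, -⟩ := mem_filter.1 (mem_coe.1 hq)
            exact Prod.ext ((mem_filter.1 a2).2.trans (mem_filter.1 b2).2.symm) hpq
      _ = lineC A s p₀.2 := card_ln _ _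
      _ ≤ k := by rw [← h4]; exact h6.le

/-- the constant of Szemerédi–Trotter -/
def kST : ℕ := 4 * 373248

/-- **one clique**: `|A|² ≤ 2 k fl A + 4 (16 L + 1) |A|` -/
theorem sq_le_fl (A : Finset V) (L : ℕ) (hL : ∀ p ∈ A.offDiag, lineC A p.1 p.2 ≤ L) :
    A.card ^ 2 ≤ 2 * kST * fl A + 4 * (16 * L + 1) * A.card := by
  classical
  have h1 := st_pairs A kST L (by unfold kST; norm_num) hL
  have h2 := card_poor_le_fl A kST
  have h3 : A.offDiag ⊆ (A.offDiag.filter fun p => lineC A p.1 p.2 < kST) ∪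
      (A.offDiag.filter fun p => kST ≤ lineC A p.1 p.2) := by
    intro p hp
    rw [mem_union, mem_filter, mem_filter]
    rcases Nat.lt_or_ge (lineC A p.1 p.2) kST with h | h
    · exact Or.inl ⟨hp, h⟩
    · exact Or.inr ⟨hp, h⟩
  have h4 := (card_le_card h3).trans (card_union_le _ _)
  rw [offDiag_card] at h4
  have h5 : (A.card : ℝ) ^ 2 ≤
      ((A.offDiag.filter fun p => lineC A p.1 p.2 < kST).card : ℝ) +
        ((A.offDiag.filter fun p => kST ≤ lineC A p.1 p.2).card : ℝ) + A.card := by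
    have h6 : A.card * A.card ≤
        (A.offDiag.filter fun p => lineC A p.1 p.2 < kST).card +
        (A.offDiag.filter fun p => kST ≤ lineC A p.1 p.2).card + A.card := by omega
    have h7 : (A.card : ℝ) * A.card ≤
        ((A.offDiag.filter fun p => lineC A p.1 p.2 < kST).card : ℝ) +
        ((A.offDiag.filter fun p => kST ≤ lineC A p.1 p.2).card : ℝ) + A.card := by
      exact_mod_cast h6
    rw [sq]; exact h7
  have h8 : ((A.offDiag.filter fun p => lineC A p.1 p.2 < kST).card : ℝ) ≤ kST * fl A := by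
    exact_mod_cast h2
  have h9 : 373248 * ((A.card : ℝ) ^ 2 / kST) = (A.card : ℝ) ^ 2 / 4 := by
    unfold kST
    push_cast
    ring
  rw [h9] at h1
  have h10 : (A.card : ℝ) ^ 2 ≤ 2 * kST * fl A + 4 * (16 * L + 1) * A.card := by
    have h11 : (0:ℝ) ≤ A.card := Nat.cast_nonneg _
    have h12 : (0:ℝ) ≤ L := Nat.cast_nonneg _
    have h13 : (0:ℝ) ≤ kST * fl A := by positivity
    nlinarith
  exact_mod_cast h10

open scoped Classical in
/-- **one clique with classes**: `|A|² ≤ 4 k κ₀ ∑_s #(directions of the same class at s)` -/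
theorem sq_le_classes_fl (A : Finset V) (cl : V → C) (κ₀ : ℕ) (hcl : (A.image cl).card ≤ κ₀)
    (L : ℕ) (hL : ∀ p ∈ A.offDiag, lineC A p.1 p.2 ≤ L) (hbig : 8 * κ₀ * (16 * L + 1) ≤ A.card) :
    A.card ^ 2 ≤ 4 * kST * κ₀ *
      ∑ s ∈ A, (dirs (A.filter fun r => cl r = cl s) s).card := by
  have h1 : A.card = ∑ c ∈ A.image cl, (A.filter fun r => cl r = c).card :=
    Finset.card_eq_sum_card_image _ _
  have h2 : A.card ^ 2 ≤ κ₀ * ∑ c ∈ A.image cl, (A.filter fun r => cl r = c).card ^ 2 := by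
    have h3 : (∑ c ∈ A.image cl, (A.filter fun r => cl r = c).card) ^ 2 ≤
        (A.image cl).card * ∑ c ∈ A.image cl, (A.filter fun r => cl r = c).card ^ 2 :=
      sq_sum_le_card_mul_sum_sq
    rw [← h1] at h3
    exact h3.trans (Nat.mul_le_mul_right _ hcl)
  have h4 : ∀ c ∈ A.image cl, (A.filter fun r => cl r = c).card ^ 2 ≤
      2 * kST * fl (A.filter fun r => cl r = c) +
        4 * (16 * L + 1) * (A.filter fun r => cl r = c).card := by
    intro c hc
    refine sq_le_fl _ L ?_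
    intro p hp
    rw [mem_offDiag, mem_filter, mem_filter] at hp
    refine le_trans ?_ (hL p (mem_offDiag.2 ⟨hp.1.1, hp.2.1.1, hp.2.2⟩))
    unfold lineC
    exact card_le_card (filter_subset_filter _ (filter_subset _ _))
  have h5 : ∑ c ∈ A.image cl, (A.filter fun r => cl r = c).card ^ 2 ≤
      2 * kST * (∑ c ∈ A.image cl, fl (A.filter fun r => cl r = c)) +
        4 * (16 * L + 1) * A.card := by
    refine (Finset.sum_le_sum h4).trans ?_
    rw [Finset.sum_add_distrib, ← Finset.mul_sum, ← Finset.mul_sum, ← h1]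
  have h6 : ∑ c ∈ A.image cl, fl (A.filter fun r => cl r = c) =
      ∑ s ∈ A, (dirs (A.filter fun r => cl r = cl s) s).card := by
    rw [← Finset.sum_fiberwise_of_maps_to (g := cl) (t := A.image cl)
      (fun s hs => mem_image_of_mem cl hs)]
    refine Finset.sum_congr rfl fun c hc => ?_
    unfold fl
    refine Finset.sum_congr rfl fun s hs => ?_
    rw [(mem_filter.1 hs).2]
  rw [h6] at h5
  obtain ⟨F, hF⟩ : ∃ F, F = ∑ s ∈ A, (dirs (A.filter fun r => cl r = cl s) s).card := ⟨_, rfl⟩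
  rw [← hF] at h5 ⊢
  have h7 : A.card ^ 2 ≤ κ₀ * (2 * kST * F + 4 * (16 * L + 1) * A.card) :=
    h2.trans (Nat.mul_le_mul_left _ h5)
  have h8 : 8 * κ₀ * (16 * L + 1) * A.card ≤ A.card * A.card := Nat.mul_le_mul_right _ hbig
  have h9 : 2 * A.card ^ 2 ≤ 4 * kST * κ₀ * F + A.card ^ 2 := by
    calc 2 * A.card ^ 2 ≤ 2 * (κ₀ * (2 * kST * F + 4 * (16 * L + 1) * A.card)) := by omega
      _ = 4 * kST * κ₀ * F + 8 * κ₀ * (16 * L + 1) * A.card := by ring
      _ ≤ _ := by rw [sq]; exact Nat.add_le_add_left h8 _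
  omega

/-- `∑ #A_i ≤ #(⋃ A_i) + ∑_{i ≠ j} #(A_i ∩ A_j)` -/
theorem sum_card_le_union {ι α : Type*} [DecidableEq ι] [DecidableEq α] (I : Finset ι)
    (A : ι → Finset α) (D : Finset α) (hD : ∀ i ∈ I, A i ⊆ D) :
    ∑ i ∈ I, (A i).card ≤ D.card + ∑ p ∈ I.offDiag, (A p.1 ∩ A p.2).card := by
  have h1 : ∑ i ∈ I, (A i).card = ∑ x ∈ D, (I.filter fun i => x ∈ A i).card := by
    have h2 : ∀ i ∈ I, (A i).card = ∑ x ∈ D, if x ∈ A i then 1 else 0 := by
      intro i hi
      rw [← Finset.sum_filter, Finset.sum_const, smul_eq_mul, mul_one]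
      congr 1
      ext x
      rw [mem_filter]
      exact ⟨fun h => ⟨hD i hi h, h⟩, fun h => h.2⟩
    rw [Finset.sum_congr rfl h2, Finset.sum_comm]
    refine Finset.sum_congr rfl fun x hx => ?_
    rw [← Finset.sum_filter, Finset.sum_const, smul_eq_mul, mul_one]
  have h3 : ∑ p ∈ I.offDiag, (A p.1 ∩ A p.2).card =
      ∑ x ∈ D, ((I.filter fun i => x ∈ A i).offDiag).card := by
    have h4 : ∀ p ∈ I.offDiag, (A p.1 ∩ A p.2).card =
        ∑ x ∈ D, if x ∈ A p.1 ∧ x ∈ A p.2 then 1 else 0 := by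
      intro p hp
      rw [← Finset.sum_filter, Finset.sum_const, smul_eq_mul, mul_one]
      congr 1
      ext x
      rw [mem_filter, mem_inter]
      exact ⟨fun h => ⟨hD _ (mem_offDiag.1 hp).1 h.1, h⟩, fun h => h.2⟩
    rw [Finset.sum_congr rfl h4, Finset.sum_comm]
    refine Finset.sum_congr rfl fun x hx => ?_
    rw [← Finset.sum_filter, Finset.sum_const, smul_eq_mul, mul_one]
    congr 1
    ext p
    simp only [mem_filter, mem_offDiag]
    tauto
  rw [h1, h3, Finset.card_eq_sum_ones D, ← Finset.sum_add_distrib]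
  refine Finset.sum_le_sum fun x hx => ?_
  rw [offDiag_card]
  rcases Nat.eq_zero_or_pos (I.filter fun i => x ∈ A i).card with h | h
  · rw [h]; omega
  · have h4 : (I.filter fun i => x ∈ A i).card + (I.filter fun i => x ∈ A i).card ≤
        1 + (I.filter fun i => x ∈ A i).card * (I.filter fun i => x ∈ A i).card := by
      nlinarith
    omega

open scoped Classical in
/-- the flags of the classes of `S`, vertex by vertex -/
theorem sum_W_classes (adj : V → V → Prop) (S : Finset V) (cl : V → C) :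
    ∑ c ∈ S.image cl, W adj (S.filter fun r => cl r = c) =
      ∑ s ∈ S, (fdirs adj (S.filter fun r => cl r = cl s) s).card := by
  rw [← Finset.sum_fiberwise_of_maps_to (g := cl) (t := S.image cl)
    (fun s hs => mem_image_of_mem cl hs)]
  refine Finset.sum_congr rfl fun c hc => ?_
  unfold W
  refine Finset.sum_congr rfl fun s hs => ?_
  rw [(mem_filter.1 hs).2]

open scoped Classical in
/-- the same-class directions of the flats at one vertex -/
theorem sum_dirs_le (𝓕 : Finset κ) (SF : κ → Finset V) (S : Finset V) (hS : ∀ F ∈ 𝓕, SF F ⊆ S)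
    (adj : V → V → Prop) (hadj : ∀ F ∈ 𝓕, ∀ s ∈ SF F, ∀ r ∈ SF F, s ≠ r → adj s r)
    (cl : V → C) :
    ∑ F ∈ 𝓕, ∑ s ∈ SF F, (dirs ((SF F).filter fun r => cl r = cl s) s).card ≤
      ∑ s ∈ S, ((fdirs adj (S.filter fun r => cl r = cl s) s).card +
        ∑ p ∈ (𝓕.filter fun F => s ∈ SF F).offDiag,
          (dirs ((SF p.1).filter fun r => cl r = cl s) s ∩
            dirs ((SF p.2).filter fun r => cl r = cl s) s).card) := by
  have h1 : ∑ F ∈ 𝓕, ∑ s ∈ SF F, (dirs ((SF F).filter fun r => cl r = cl s) s).card =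
      ∑ s ∈ S, ∑ F ∈ 𝓕.filter (fun F => s ∈ SF F),
        (dirs ((SF F).filter fun r => cl r = cl s) s).card := by
    have h2 : ∀ F ∈ 𝓕, ∑ s ∈ SF F, (dirs ((SF F).filter fun r => cl r = cl s) s).card =
        ∑ s ∈ S, if s ∈ SF F then (dirs ((SF F).filter fun r => cl r = cl s) s).card else 0 := by
      intro F hF
      rw [← Finset.sum_filter]
      congr 1
      ext s
      rw [mem_filter]
      exact ⟨fun h => ⟨hS F hF h, h⟩, fun h => h.2⟩
    rw [Finset.sum_congr rfl h2, Finset.sum_comm]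
    refine Finset.sum_congr rfl fun s hs => ?_
    rw [Finset.sum_filter]
  rw [h1]
  refine Finset.sum_le_sum fun s hs => ?_
  refine sum_card_le_union _ _ _ ?_
  intro F hF u hu
  rw [mem_filter] at hF
  obtain ⟨r, hr, h2, h3⟩ := mem_dirs.1 hu
  rw [mem_filter] at hr
  exact mem_fdirs.2 ⟨r, mem_filter.2 ⟨hS F hF.1 hr.1, hr.2⟩,
    hadj F hF.1 s hF.2 r hr.1 (Ne.symm h2), h3⟩

open scoped Classical in
/-- **near-step with flags** (`n = 2`): two flats through `s` share at most one line through `s` -/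
theorem cntW_near (𝓕 : Finset κ) (SF : κ → Finset V) (S : Finset V) (hS : ∀ F ∈ 𝓕, SF F ⊆ S)
    (adj : V → V → Prop) (hadj : ∀ F ∈ 𝓕, ∀ s ∈ SF F, ∀ r ∈ SF F, s ≠ r → adj s r)
    (cl : V → C) (κ₀ : ℕ) (hcl : ∀ F ∈ 𝓕, ((SF F).image cl).card ≤ κ₀)
    (L : ℕ) (hL : ∀ F ∈ 𝓕, ∀ p ∈ (SF F).offDiag, lineC (SF F) p.1 p.2 ≤ L)
    (hbig : ∀ F ∈ 𝓕, 8 * κ₀ * (16 * L + 1) ≤ (SF F).card)
    (hshare : ∀ F ∈ 𝓕, ∀ F' ∈ 𝓕, F ≠ F' → ∀ s, s ∈ SF F → s ∈ SF F' →
      (dirs (SF F) s ∩ dirs (SF F') s).card ≤ 1) :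
    ∑ F ∈ 𝓕, (SF F).card ^ 2 ≤
      4 * kST * κ₀ * (∑ c ∈ S.image cl, W adj (S.filter fun r => cl r = c) +
        ∑ s ∈ S, (𝓕.filter fun F => s ∈ SF F).card ^ 2) := by
  have h1 : ∀ F ∈ 𝓕, (SF F).card ^ 2 ≤ 4 * kST * κ₀ *
      ∑ s ∈ SF F, (dirs ((SF F).filter fun r => cl r = cl s) s).card := fun F hF =>
    sq_le_classes_fl (SF F) cl κ₀ (hcl F hF) L (hL F hF) (hbig F hF)
  refine (Finset.sum_le_sum h1).trans ?_
  rw [← Finset.mul_sum]
  refine Nat.mul_le_mul_left _ ((sum_dirs_le 𝓕 SF S hS adj hadj cl).trans ?_)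
  rw [Finset.sum_add_distrib, sum_W_classes]
  refine Nat.add_le_add_left (Finset.sum_le_sum fun s hs => ?_) _
  have h2 : ∀ p ∈ (𝓕.filter fun F => s ∈ SF F).offDiag,
      (dirs ((SF p.1).filter fun r => cl r = cl s) s ∩
            dirs ((SF p.2).filter fun r => cl r = cl s) s).card ≤ 1 := by
    intro p hp
    obtain ⟨hp1, hp2, hp3⟩ := mem_offDiag.1 hp
    rw [mem_filter] at hp1 hp2
    refine le_trans (card_le_card ?_) (hshare p.1 hp1.1 p.2 hp2.1 hp3 s hp1.2 hp2.2)
    exact inter_subset_inter (dirs_mono (filter_subset _ _) s) (dirs_mono (filter_subset _ _) s)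
  refine (Finset.sum_le_sum h2).trans ?_
  rw [Finset.sum_const, smul_eq_mul, mul_one, offDiag_card, sq]
  exact Nat.sub_le _ _

open scoped Classical in
/-- **planar count with flags** (`n ≥ 3`): at most `m` lines of `F` through `s ∈ SF F` are shared
with another flat of the family through `s` -/
theorem cntW (𝓕 : Finset κ) (SF : κ → Finset V) (S : Finset V) (hS : ∀ F ∈ 𝓕, SF F ⊆ S)
    (adj : V → V → Prop) (hadj : ∀ F ∈ 𝓕, ∀ s ∈ SF F, ∀ r ∈ SF F, s ≠ r → adj s r)
    (cl : V → C) (κ₀ : ℕ) (hcl : ∀ F ∈ 𝓕, ((SF F).image cl).card ≤ κ₀)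
    (m L : ℕ) (hL : ∀ F ∈ 𝓕, ∀ p ∈ (SF F).offDiag, lineC (SF F) p.1 p.2 ≤ L)
    (hbig : ∀ F ∈ 𝓕, 8 * κ₀ * (16 * L + 1 + kST * m) ≤ (SF F).card)
    (hM : ∀ F ∈ 𝓕, ∀ s ∈ SF F, ∃ U : Finset (Submodule ℝ V), U.card ≤ m ∧
      ∀ F' ∈ 𝓕, F' ≠ F → s ∈ SF F' → dirs (SF F) s ∩ dirs (SF F') s ⊆ U) :
    ∑ F ∈ 𝓕, (SF F).card ^ 2 ≤
      8 * kST * κ₀ * ∑ c ∈ S.image cl, W adj (S.filter fun r => cl r = c) := by
  have h1 : ∀ F ∈ 𝓕, (SF F).card ^ 2 ≤ 4 * kST * κ₀ *
      ∑ s ∈ SF F, (dirs ((SF F).filter fun r => cl r = cl s) s).card := fun F hF =>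
    sq_le_classes_fl (SF F) cl κ₀ (hcl F hF) L (hL F hF)
      (le_trans (Nat.mul_le_mul_left _ (Nat.le_add_right _ _)) (hbig F hF))
  -- unshared directions
  choose! U hUc hU using hM
  set N : κ → V → Finset (Submodule ℝ V) := fun F s =>
    dirs ((SF F).filter fun r => cl r = cl s) s \ U F s with hN
  have h2 : ∀ F ∈ 𝓕, ∑ s ∈ SF F, (dirs ((SF F).filter fun r => cl r = cl s) s).card ≤
      ∑ s ∈ SF F, (N F s).card + m * (SF F).card := by
    intro F hF
    have h3 : ∀ s ∈ SF F, (dirs ((SF F).filter fun r => cl r = cl s) s).card ≤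
        (N F s).card + m := by
      intro s hs
      have h4 := Finset.le_card_sdiff (U F s) (dirs ((SF F).filter fun r => cl r = cl s) s)
      have h5 := hUc F hF s hs
      simp only [hN]
      omega
    refine (Finset.sum_le_sum h3).trans ?_
    rw [Finset.sum_add_distrib, Finset.sum_const, smul_eq_mul, mul_comm m]
  have h3 : ∑ F ∈ 𝓕, ∑ s ∈ SF F, (N F s).card ≤
      ∑ c ∈ S.image cl, W adj (S.filter fun r => cl r = c) := by
    rw [sum_W_classes]
    have h4 : ∑ F ∈ 𝓕, ∑ s ∈ SF F, (N F s).card =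
        ∑ s ∈ S, ∑ F ∈ 𝓕.filter (fun F => s ∈ SF F), (N F s).card := by
      have h5 : ∀ F ∈ 𝓕, ∑ s ∈ SF F, (N F s).card =
          ∑ s ∈ S, if s ∈ SF F then (N F s).card else 0 := by
        intro F hF
        rw [← Finset.sum_filter]
        congr 1
        ext s
        rw [mem_filter]
        exact ⟨fun h => ⟨hS F hF h, h⟩, fun h => h.2⟩
      rw [Finset.sum_congr rfl h5, Finset.sum_comm]
      refine Finset.sum_congr rfl fun s hs => ?_
      rw [Finset.sum_filter]
    rw [h4]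
    refine Finset.sum_le_sum fun s hs => ?_
    rw [← Finset.card_biUnion]
    · refine card_le_card ?_
      intro u hu
      obtain ⟨F, hF, hu⟩ := mem_biUnion.1 hu
      rw [mem_filter] at hF
      simp only [hN, mem_sdiff] at hu
      obtain ⟨r, hr, h5, h6⟩ := mem_dirs.1 hu.1
      rw [mem_filter] at hr
      exact mem_fdirs.2 ⟨r, mem_filter.2 ⟨hS F hF.1 hr.1, hr.2⟩,
        hadj F hF.1 s hF.2 r hr.1 (Ne.symm h5), h6⟩
    · intro F hF F' hF' hne
      rw [mem_coe, mem_filter] at hF hF'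
      rw [Function.onFun, Finset.disjoint_left]
      intro u hu hu'
      simp only [hN, mem_sdiff] at hu hu'
      refine hu.2 (hU F hF.1 s hF.2 F' hF'.1 (Ne.symm hne) hF'.2 ?_)
      rw [mem_inter]
      exact ⟨dirs_mono (filter_subset _ _) s hu.1, dirs_mono (filter_subset _ _) s hu'.1⟩
  obtain ⟨Z, hZ⟩ : ∃ Z, Z = ∑ c ∈ S.image cl, W adj (S.filter fun r => cl r = c) := ⟨_, rfl⟩
  rw [← hZ] at h3 ⊢
  have h4 : ∑ F ∈ 𝓕, (SF F).card ^ 2 ≤ 4 * kST * κ₀ * (Z + m * ∑ F ∈ 𝓕, (SF F).card) := by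
    refine (Finset.sum_le_sum h1).trans ?_
    rw [← Finset.mul_sum]
    refine Nat.mul_le_mul_left _ ((Finset.sum_le_sum h2).trans ?_)
    rw [Finset.sum_add_distrib, ← Finset.mul_sum]
    exact Nat.add_le_add_right h3 _
  have h5 : 2 * (4 * kST * κ₀ * (m * ∑ F ∈ 𝓕, (SF F).card)) ≤ ∑ F ∈ 𝓕, (SF F).card ^ 2 := by
    rw [Finset.mul_sum, Finset.mul_sum, Finset.mul_sum]
    refine Finset.sum_le_sum fun F hF => ?_
    have h6 := Nat.mul_le_mul_right (SF F).card (hbig F hF)
    rw [sq]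
    calc 2 * (4 * kST * κ₀ * (m * (SF F).card))
        ≤ 8 * κ₀ * (16 * L + 1) * (SF F).card + 2 * (4 * kST * κ₀ * (m * (SF F).card)) :=
          Nat.le_add_left _ _
      _ = 8 * κ₀ * (16 * L + 1 + kST * m) * (SF F).card := by ring
      _ ≤ _ := h6
  have h6 : 4 * kST * κ₀ * (Z + m * ∑ F ∈ 𝓕, (SF F).card) =
      4 * kST * κ₀ * Z + 4 * kST * κ₀ * (m * ∑ F ∈ 𝓕, (SF F).card) := by ring
  have h7 : 8 * kST * κ₀ * Z = 2 * (4 * kST * κ₀ * Z) := by ring
  rw [h6] at h4
  rw [h7]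
  omega

open scoped Classical in
/-- one clique with classes, no size condition -/
theorem sq_le_classes_fl' (A : Finset V) (cl : V → C) (κ₀ : ℕ) (hcl : (A.image cl).card ≤ κ₀)
    (L : ℕ) (hL : ∀ p ∈ A.offDiag, lineC A p.1 p.2 ≤ L) :
    A.card ^ 2 ≤ κ₀ * (2 * kST * (∑ s ∈ A, (dirs (A.filter fun r => cl r = cl s) s).card) +
      4 * (16 * L + 1) * A.card) := by
  have h1 : A.card = ∑ c ∈ A.image cl, (A.filter fun r => cl r = c).card :=
    Finset.card_eq_sum_card_image _ _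
  have h2 : A.card ^ 2 ≤ κ₀ * ∑ c ∈ A.image cl, (A.filter fun r => cl r = c).card ^ 2 := by
    have h3 : (∑ c ∈ A.image cl, (A.filter fun r => cl r = c).card) ^ 2 ≤
        (A.image cl).card * ∑ c ∈ A.image cl, (A.filter fun r => cl r = c).card ^ 2 :=
      sq_sum_le_card_mul_sum_sq
    rw [← h1] at h3
    exact h3.trans (Nat.mul_le_mul_right _ hcl)
  refine h2.trans (Nat.mul_le_mul_left _ ?_)
  have h4 : ∀ c ∈ A.image cl, (A.filter fun r => cl r = c).card ^ 2 ≤
      2 * kST * fl (A.filter fun r => cl r = c) +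
        4 * (16 * L + 1) * (A.filter fun r => cl r = c).card := by
    intro c hc
    refine sq_le_fl _ L ?_
    intro p hp
    rw [mem_offDiag, mem_filter, mem_filter] at hp
    refine le_trans ?_ (hL p (mem_offDiag.2 ⟨hp.1.1, hp.2.1.1, hp.2.2⟩))
    unfold lineC
    exact card_le_card (filter_subset_filter _ (filter_subset _ _))
  refine (Finset.sum_le_sum h4).trans ?_
  rw [Finset.sum_add_distrib, ← Finset.mul_sum, ← Finset.mul_sum, ← h1]
  refine Nat.add_le_add_right (Nat.mul_le_mul_left _ (le_of_eq ?_)) _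
  rw [← Finset.sum_fiberwise_of_maps_to (g := cl) (t := A.image cl)
    (fun s hs => mem_image_of_mem cl hs)]
  refine Finset.sum_congr rfl fun c hc => ?_
  unfold fl
  refine Finset.sum_congr rfl fun s hs => ?_
  rw [(mem_filter.1 hs).2]

open scoped Classical in
/-- **count with flags, general multiplicities** (no size condition): `m F s` bounds the number of
lines of `F` through `s` which are shared with another flat of the family through `s` -/
theorem cntW_gen (𝓕 : Finset κ) (SF : κ → Finset V) (S : Finset V) (hS : ∀ F ∈ 𝓕, SF F ⊆ S)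
    (adj : V → V → Prop) (hadj : ∀ F ∈ 𝓕, ∀ s ∈ SF F, ∀ r ∈ SF F, s ≠ r → adj s r)
    (cl : V → C) (κ₀ : ℕ) (hcl : ∀ F ∈ 𝓕, ((SF F).image cl).card ≤ κ₀)
    (L : ℕ) (hL : ∀ F ∈ 𝓕, ∀ p ∈ (SF F).offDiag, lineC (SF F) p.1 p.2 ≤ L)
    (m : κ → V → ℕ)
    (hM : ∀ F ∈ 𝓕, ∀ s ∈ SF F, ∃ U : Finset (Submodule ℝ V), U.card ≤ m F s ∧
      ∀ F' ∈ 𝓕, F' ≠ F → s ∈ SF F' → dirs (SF F) s ∩ dirs (SF F') s ⊆ U) :
    ∑ F ∈ 𝓕, (SF F).card ^ 2 ≤
      κ₀ * (2 * kST * (∑ c ∈ S.image cl, W adj (S.filter fun r => cl r = c)) +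
        ∑ F ∈ 𝓕, ∑ s ∈ SF F, (2 * kST * m F s + 4 * (16 * L + 1))) := by
  have h1 : ∀ F ∈ 𝓕, (SF F).card ^ 2 ≤ κ₀ * (2 * kST *
      (∑ s ∈ SF F, (dirs ((SF F).filter fun r => cl r = cl s) s).card) +
        4 * (16 * L + 1) * (SF F).card) := fun F hF =>
    sq_le_classes_fl' (SF F) cl κ₀ (hcl F hF) L (hL F hF)
  choose! U hUc hU using hM
  set N : κ → V → Finset (Submodule ℝ V) := fun F s =>
    dirs ((SF F).filter fun r => cl r = cl s) s \ U F s with hN
  have h2 : ∀ F ∈ 𝓕, ∑ s ∈ SF F, (dirs ((SF F).filter fun r => cl r = cl s) s).card ≤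
      ∑ s ∈ SF F, (N F s).card + ∑ s ∈ SF F, m F s := by
    intro F hF
    rw [← Finset.sum_add_distrib]
    refine Finset.sum_le_sum fun s hs => ?_
    have h4 := Finset.le_card_sdiff (U F s) (dirs ((SF F).filter fun r => cl r = cl s) s)
    have h5 := hUc F hF s hs
    simp only [hN]
    omega
  have h3 : ∑ F ∈ 𝓕, ∑ s ∈ SF F, (N F s).card ≤
      ∑ c ∈ S.image cl, W adj (S.filter fun r => cl r = c) := by
    rw [sum_W_classes]
    have h4 : ∑ F ∈ 𝓕, ∑ s ∈ SF F, (N F s).card =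
        ∑ s ∈ S, ∑ F ∈ 𝓕.filter (fun F => s ∈ SF F), (N F s).card := by
      have h5 : ∀ F ∈ 𝓕, ∑ s ∈ SF F, (N F s).card =
          ∑ s ∈ S, if s ∈ SF F then (N F s).card else 0 := by
        intro F hF
        rw [← Finset.sum_filter]
        congr 1
        ext s
        rw [mem_filter]
        exact ⟨fun h => ⟨hS F hF h, h⟩, fun h => h.2⟩
      rw [Finset.sum_congr rfl h5, Finset.sum_comm]
      refine Finset.sum_congr rfl fun s hs => ?_
      rw [Finset.sum_filter]
    rw [h4]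
    refine Finset.sum_le_sum fun s hs => ?_
    rw [← Finset.card_biUnion]
    · refine card_le_card ?_
      intro u hu
      obtain ⟨F, hF, hu⟩ := mem_biUnion.1 hu
      rw [mem_filter] at hF
      simp only [hN, mem_sdiff] at hu
      obtain ⟨r, hr, h5, h6⟩ := mem_dirs.1 hu.1
      rw [mem_filter] at hr
      exact mem_fdirs.2 ⟨r, mem_filter.2 ⟨hS F hF.1 hr.1, hr.2⟩,
        hadj F hF.1 s hF.2 r hr.1 (Ne.symm h5), h6⟩
    · intro F hF F' hF' hne
      rw [mem_coe, mem_filter] at hF hF'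
      rw [Function.onFun, Finset.disjoint_left]
      intro u hu hu'
      simp only [hN, mem_sdiff] at hu hu'
      refine hu.2 (hU F hF.1 s hF.2 F' hF'.1 (Ne.symm hne) hF'.2 ?_)
      rw [mem_inter]
      exact ⟨dirs_mono (filter_subset _ _) s hu.1, dirs_mono (filter_subset _ _) s hu'.1⟩
  refine (Finset.sum_le_sum h1).trans ?_
  rw [← Finset.mul_sum]
  refine Nat.mul_le_mul_left _ ?_
  have h5 : ∑ F ∈ 𝓕, (2 * kST *
      (∑ s ∈ SF F, (dirs ((SF F).filter fun r => cl r = cl s) s).card) +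
        4 * (16 * L + 1) * (SF F).card) ≤ ∑ F ∈ 𝓕, (2 * kST * (∑ s ∈ SF F, (N F s).card) +
          ∑ s ∈ SF F, (2 * kST * m F s + 4 * (16 * L + 1))) := by
    refine Finset.sum_le_sum fun F hF => ?_
    have h6 := Nat.mul_le_mul_left (2 * kST) (h2 F hF)
    rw [Finset.sum_add_distrib, Finset.sum_const, smul_eq_mul, ← Finset.mul_sum]
    have e1 : 2 * kST * (∑ s ∈ SF F, (N F s).card + ∑ s ∈ SF F, m F s) =
        2 * kST * (∑ s ∈ SF F, (N F s).card) + 2 * kST * (∑ s ∈ SF F, m F s) := by ring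
    have e2 : (SF F).card * (4 * (16 * L + 1)) = 4 * (16 * L + 1) * (SF F).card := by ring
    rw [e1] at h6
    rw [e2]
    omega
  refine h5.trans ?_
  rw [Finset.sum_add_distrib, ← Finset.mul_sum]
  exact Nat.add_le_add_right (Nat.mul_le_mul_left _ h3) _

end Vale.Agent.P054.T3.H691
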