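import Vale.Agent.P054.T3.H398.Cnt

set_option autoImplicit false
set_option linter.all false

/-!
# P054 / T3 / H691: the count on flats with adjacency off rich lines only

`SF F ⊆ AF F` are finite sets (`AF F` = all points of the vertex set in the flat `F`, `SF F` = the
marked ones); two points of `SF F` are adjacent if the line through them has fewer than `k₁` points
of `AF F`.  Two-level Szemerédi–Trotter: few pairs of `SF F` are on `k₁`-rich lines of `AF F`.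

* `card_rich_pairs_le` : the pairs of `S ⊆ A` on lines with `k₁` points of `A`.
* `sum_sq_flats` : the count with an arbitrary multiplicity term.
* `cnt_flats_rich` : the form of `H398.cnt_flats`.
* `near_flats` : the form in which two flats through `s` share few points.
-/

namespace Vale.Agent.P054.T3.H691

open Finset
open Vale.Agent.P054.T3.H109.Gen (onL lineC ln rl mem_ln mem_rl card_ln st_lines st_pairs)
open Vale.Agent.P054.T3.H398 (onL_trans sq_card_le_classes)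

variable {V κ C : Type*} [AddCommGroup V] [Module ℝ V]

theorem lineC_mono {S A : Finset V} (h : S ⊆ A) (x y : V) : lineC S x y ≤ lineC A x y := by
  classical
  unfold lineC
  exact card_le_card (filter_subset_filter _ h)

open scoped Classical in
/-- pairs of `S ⊆ A` on poor lines of `S` which are rich in `A` -/
theorem card_poor_rich_le {S A : Finset V} (hSA : S ⊆ A) (k k₁ : ℕ) :
    (S.offDiag.filter fun p => lineC S p.1 p.2 < k ∧ k₁ ≤ lineC A p.1 p.2).card ≤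
      (rl A k₁).card * k ^ 2 := by
  rw [mul_comm]
  have hmap : ∀ p ∈ (S.offDiag.filter fun p => lineC S p.1 p.2 < k ∧ k₁ ≤ lineC A p.1 p.2),
      ln A p ∈ rl A k₁ := by
    intro p hp
    rw [mem_filter, mem_offDiag] at hp
    exact mem_rl.2 ⟨p, mem_offDiag.2 ⟨hSA hp.1.1, hSA hp.1.2.1, hp.1.2.2⟩, hp.2.2, rfl⟩
  refine Finset.card_le_mul_card_image_of_maps_to hmap (k ^ 2) ?_
  intro l hl
  rcases ((S.offDiag.filter fun p => lineC S p.1 p.2 < k ∧ k₁ ≤ lineC A p.1 p.2).filter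
    fun p => ln A p = l).eq_empty_or_nonempty with h0 | ⟨p₀, hp₀⟩
  · rw [h0]; simp
  rw [mem_filter, mem_filter, mem_offDiag] at hp₀
  have h1 : ((S.offDiag.filter fun p => lineC S p.1 p.2 < k ∧ k₁ ≤ lineC A p.1 p.2).filter
      fun p => ln A p = l) ⊆ (ln S p₀) ×ˢ (ln S p₀) := by
    intro p hp
    rw [mem_filter, mem_filter, mem_offDiag] at hp
    have h2 : p.1 ∈ ln A p₀ := by
      rw [hp₀.2, ← hp.2]
      exact mem_ln.2 ⟨hSA hp.1.1.1, Vale.Agent.P054.T3.H109.Gen.onL_left _ _⟩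
    have h3 : p.2 ∈ ln A p₀ := by
      rw [hp₀.2, ← hp.2]
      exact mem_ln.2 ⟨hSA hp.1.1.2.1, Vale.Agent.P054.T3.H109.Gen.onL_right _ _⟩
    rw [mem_product]
    exact ⟨mem_ln.2 ⟨hp.1.1.1, (mem_ln.1 h2).2⟩, mem_ln.2 ⟨hp.1.1.2.1, (mem_ln.1 h3).2⟩⟩
  refine (card_le_card h1).trans ?_
  rw [card_product, card_ln, sq]
  exact Nat.mul_le_mul hp₀.1.2.1.le hp₀.1.2.1.le

open scoped Classical in
/-- **two-level Szemerédi–Trotter**: the pairs of `S ⊆ A` on lines with at least `k₁` points of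
`A` -/
theorem card_rich_pairs_le {S A : Finset V} (hSA : S ⊆ A) (k k₁ L : ℕ) (hk : 1 ≤ k)
    (hk₁ : 1 ≤ k₁) (hL : ∀ p ∈ S.offDiag, lineC S p.1 p.2 ≤ L) :
    ((S.offDiag.filter fun p => k ≤ lineC S p.1 p.2 ∨ k₁ ≤ lineC A p.1 p.2).card : ℝ) ≤
      373248 * ((S.card : ℝ) ^ 2 / k) + 16 * S.card * L +
        k ^ 2 * (46656 * (A.card : ℝ) ^ 2 / k₁ ^ 3 + 2 * A.card / k₁) := by
  have h1 : (S.offDiag.filter fun p => k ≤ lineC S p.1 p.2 ∨ k₁ ≤ lineC A p.1 p.2) ⊆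
      (S.offDiag.filter fun p => k ≤ lineC S p.1 p.2) ∪
        (S.offDiag.filter fun p => lineC S p.1 p.2 < k ∧ k₁ ≤ lineC A p.1 p.2) := by
    intro p hp
    rw [mem_filter] at hp
    rw [mem_union, mem_filter, mem_filter]
    rcases Nat.lt_or_ge (lineC S p.1 p.2) k with h | h
    · right
      refine ⟨hp.1, h, ?_⟩
      rcases hp.2 with h' | h'
      · omega
      · exact h'
    · exact Or.inl ⟨hp.1, h⟩
  have h2 := st_pairs S k L hk hL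
  have h3 : ((S.offDiag.filter fun p => lineC S p.1 p.2 < k ∧ k₁ ≤ lineC A p.1 p.2).card : ℝ) ≤
      (rl A k₁).card * (k:ℝ) ^ 2 := by
    exact_mod_cast card_poor_rich_le hSA k k₁
  have h4 : ((rl A k₁).card : ℝ) ≤ 46656 * (A.card : ℝ) ^ 2 / k₁ ^ 3 + 2 * A.card / k₁ := by
    have h5 : ((rl A k₁).card : ℝ) * (k₁:ℝ) ^ 3 ≤ 46656 * (A.card : ℝ) ^ 2 +
        2 * A.card * (k₁:ℝ) ^ 2 := by exact_mod_cast st_lines A k₁
    have hk0 : (0:ℝ) < k₁ := by exact_mod_cast hk₁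
    have h6 : 46656 * (A.card : ℝ) ^ 2 / k₁ ^ 3 + 2 * A.card / k₁ =
        (46656 * (A.card : ℝ) ^ 2 + 2 * A.card * (k₁:ℝ) ^ 2) / (k₁:ℝ) ^ 3 := by
      field_simp
    rw [h6, le_div_iff₀ (by positivity)]
    exact h5
  have h7 : ((S.offDiag.filter fun p => k ≤ lineC S p.1 p.2 ∨ k₁ ≤ lineC A p.1 p.2).card : ℝ) ≤
      ((S.offDiag.filter fun p => k ≤ lineC S p.1 p.2).card : ℝ) +
        ((S.offDiag.filter fun p => lineC S p.1 p.2 < k ∧ k₁ ≤ lineC A p.1 p.2).card : ℝ) := by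
    exact_mod_cast (card_le_card h1).trans (card_union_le _ _)
  have h8 := mul_le_mul_of_nonneg_right h4 (sq_nonneg (k:ℝ))
  linarith

open scoped Classical in
/-- the good pairs of a flat: same class, poor line in `SF F`, not `k₁`-rich line in `AF F` -/
noncomputable def gp (S A : Finset V) (cl : V → C) (k k₁ : ℕ) : Finset (V × V) :=
  S.offDiag.filter fun p => cl p.1 = cl p.2 ∧ lineC S p.1 p.2 < k ∧ lineC A p.1 p.2 < k₁

theorem mem_gp {S A : Finset V} {cl : V → C} {k k₁ : ℕ} {p : V × V} :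
    p ∈ gp S A cl k k₁ ↔ p ∈ S.offDiag ∧ cl p.1 = cl p.2 ∧ lineC S p.1 p.2 < k ∧
      lineC A p.1 p.2 < k₁ := by
  classical
  unfold gp
  rw [mem_filter]

open scoped Classical in
/-- **one flat**: most of the same-class pairs are good -/
theorem sq_le_gp {S A : Finset V} (hSA : S ⊆ A) (cl : V → C) (κ₀ : ℕ)
    (hcl : (S.image cl).card ≤ κ₀) (k k₁ L : ℕ) (hk₁ : 1 ≤ k₁)
    (hL : ∀ p ∈ S.offDiag, lineC S p.1 p.2 ≤ L)
    (hk : 6 * 373248 * κ₀ ≤ k) (hbig : 6 * κ₀ * (16 * L + 1) ≤ S.card)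
    (hA : 6 * κ₀ * (k:ℝ) ^ 2 * (46656 * (A.card : ℝ) ^ 2 / k₁ ^ 3 + 2 * A.card / k₁) ≤
      (S.card : ℝ) ^ 2) :
    (S.card : ℝ) ^ 2 ≤ 2 * κ₀ * (gp S A cl k k₁).card := by
  rcases Nat.eq_zero_or_pos κ₀ with h0 | hκ
  · rw [h0, Nat.le_zero, card_eq_zero, image_eq_empty] at hcl
    rw [hcl, h0]; simp
  have hκr : (1:ℝ) ≤ κ₀ := by exact_mod_cast hκ
  have hk1 : 1 ≤ k := by omega
  have hkr : (6 * 373248 * (κ₀:ℝ)) ≤ k := by exact_mod_cast hk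
  have hk0 : (0:ℝ) < k := by linarith
  set g : ℝ := (S.card : ℝ) with hg
  have hg0 : 0 ≤ g := Nat.cast_nonneg _
  have h1 := sq_card_le_classes S cl hcl
  have h2 : (S.offDiag.filter fun p => cl p.1 = cl p.2) ⊆ gp S A cl k k₁ ∪
      (S.offDiag.filter fun p => k ≤ lineC S p.1 p.2 ∨ k₁ ≤ lineC A p.1 p.2) := by
    intro p hp
    rw [mem_filter] at hp
    rw [mem_union, mem_gp, mem_filter]
    by_cases h3 : k ≤ lineC S p.1 p.2 ∨ k₁ ≤ lineC A p.1 p.2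
    · exact Or.inr ⟨hp.1, h3⟩
    · rw [not_or, not_le, not_le] at h3
      exact Or.inl ⟨hp.1, hp.2, h3.1, h3.2⟩
  have h3 := (card_le_card h2).trans (card_union_le _ _)
  have h4 := card_rich_pairs_le hSA k k₁ L hk1 hk₁ hL
  rw [← hg] at h4
  have h5 : g ^ 2 ≤ κ₀ * (((gp S A cl k k₁).card : ℝ) +
      ((S.offDiag.filter fun p => k ≤ lineC S p.1 p.2 ∨ k₁ ≤ lineC A p.1 p.2).card : ℝ) + g) := by
    rw [hg]
    exact_mod_cast h1.trans (Nat.mul_le_mul_left _ (Nat.add_le_add_right h3 _))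
  obtain ⟨B, hB⟩ : ∃ B : ℝ, B =
    ((S.offDiag.filter fun p => k ≤ lineC S p.1 p.2 ∨ k₁ ≤ lineC A p.1 p.2).card : ℝ) := ⟨_, rfl⟩
  rw [← hB] at h4 h5
  have h6 : κ₀ * (373248 * (g ^ 2 / k)) ≤ g ^ 2 / 6 := by
    rw [le_div_iff₀ (by norm_num : (0:ℝ) < 6)]
    have : (κ₀:ℝ) * (373248 * (g ^ 2 / k)) * 6 = (6 * 373248 * κ₀) * (g ^ 2 / k) := by ring
    rw [this, ← mul_div_assoc, div_le_iff₀ hk0]
    nlinarith [mul_le_mul_of_nonneg_left hkr (sq_nonneg g)]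
  have h7 : (κ₀:ℝ) * (16 * g * L + g) ≤ g ^ 2 / 6 := by
    have h8 : (6 * κ₀ * (16 * L + 1) : ℝ) ≤ g := by rw [hg]; exact_mod_cast hbig
    nlinarith [mul_le_mul_of_nonneg_left h8 hg0]
  have h9 : (κ₀:ℝ) * (k ^ 2 * (46656 * (A.card : ℝ) ^ 2 / k₁ ^ 3 + 2 * A.card / k₁)) ≤
      g ^ 2 / 6 := by
    rw [le_div_iff₀ (by norm_num : (0:ℝ) < 6)]
    refine le_trans (le_of_eq (by ring)) hA
  have h10 : (κ₀:ℝ) * B ≤ κ₀ * (373248 * (g ^ 2 / k)) + κ₀ * (16 * g * L) +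
      κ₀ * (k ^ 2 * (46656 * (A.card : ℝ) ^ 2 / k₁ ^ 3 + 2 * A.card / k₁)) := by
    refine (mul_le_mul_of_nonneg_left h4 (by linarith)).trans (le_of_eq (by ring))
  have h11 : (κ₀:ℝ) * (((gp S A cl k k₁).card : ℝ) + B + g) =
      κ₀ * (gp S A cl k k₁).card + κ₀ * B + κ₀ * g := by ring
  rw [h11] at h5
  have h12 : (κ₀:ℝ) * (16 * g * L + g) = κ₀ * (16 * g * L) + κ₀ * g := by ring
  rw [h12] at h7
  linarith

open scoped Classical in
/-- **near-step**: the flats `F ∈ 𝓕` with marked points `SF F ⊆ AF F ⊆ S`; two flats through `s`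
share at most `k` good pairs at `s`.  `Ls s` = number of flats with `s` marked. -/
theorem near_flats (𝓕 : Finset κ) (SF AF : κ → Finset V) (S : Finset V)
    (hS : ∀ F ∈ 𝓕, SF F ⊆ S) (hA : ∀ F ∈ 𝓕, SF F ⊆ AF F)
    (k₁ : ℕ) (hk₁ : 1 ≤ k₁) (adj : V → V → Prop)
    (hadj : ∀ F ∈ 𝓕, ∀ s ∈ SF F, ∀ r ∈ SF F, s ≠ r → lineC (AF F) s r < k₁ → adj s r)
    (cl : V → C) (κ₀ : ℕ) (hcl : ∀ F ∈ 𝓕, ((SF F).image cl).card ≤ κ₀)
    (k L : ℕ) (hL : ∀ F ∈ 𝓕, ∀ p ∈ (SF F).offDiag, lineC (SF F) p.1 p.2 ≤ L)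
    (hk : 6 * 373248 * κ₀ ≤ k) (hbig : ∀ F ∈ 𝓕, 6 * κ₀ * (16 * L + 1) ≤ (SF F).card)
    (hrich : ∀ F ∈ 𝓕, 6 * κ₀ * (k:ℝ) ^ 2 *
      (46656 * ((AF F).card : ℝ) ^ 2 / k₁ ^ 3 + 2 * (AF F).card / k₁) ≤ ((SF F).card : ℝ) ^ 2)
    (hline : ∀ F ∈ 𝓕, ∀ F' ∈ 𝓕, F ≠ F' → ∀ s ∈ SF F, s ∈ SF F' → ∀ r ∈ SF F, r ∈ SF F' →
      ∀ r' ∈ SF F, r' ∈ SF F' → s ≠ r → s ≠ r' → onL s r r') :
    ∑ F ∈ 𝓕, ((SF F).card : ℝ) ^ 2 ≤
      2 * κ₀ * ((S.offDiag.filter fun p => adj p.1 p.2 ∧ cl p.1 = cl p.2).card +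
        k * ∑ s ∈ S, ((𝓕.filter fun F => s ∈ SF F).card : ℝ) ^ 2) := by
  set Q := S.offDiag.filter fun p => adj p.1 p.2 ∧ cl p.1 = cl p.2 with hQ
  set G : κ → Finset (V × V) := fun F => gp (SF F) (AF F) cl k k₁ with hG
  have hone : ∀ F ∈ 𝓕, ((SF F).card : ℝ) ^ 2 ≤ 2 * κ₀ * (G F).card := fun F hF =>
    sq_le_gp (hA F hF) cl κ₀ (hcl F hF) k k₁ L hk₁ (hL F hF) hk (hbig F hF) (hrich F hF)
  have hGQ : ∀ F ∈ 𝓕, G F ⊆ Q := by
    intro F hF p hp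
    have hp' := mem_gp.1 hp
    have h1 := mem_offDiag.1 hp'.1
    rw [hQ, mem_filter, mem_offDiag]
    exact ⟨⟨hS F hF h1.1, hS F hF h1.2.1, h1.2.2⟩,
      hadj F hF _ h1.1 _ h1.2.1 h1.2.2 hp'.2.2.2, hp'.2.1⟩
  -- multiplicities
  have hmul : ∑ F ∈ 𝓕, (G F).card ≤ Q.card + k * ∑ s ∈ S, (𝓕.filter fun F => s ∈ SF F).card ^ 2 := by
    -- `∑_F |G F| = ∑_{p ∈ Q} m p`, `m ≤ 1 + m (m - 1)`
    have h1 : ∑ F ∈ 𝓕, (G F).card = ∑ p ∈ Q, (𝓕.filter fun F => p ∈ G F).card := by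
      have h2 : ∀ F ∈ 𝓕, (G F).card = ∑ p ∈ Q, if p ∈ G F then 1 else 0 := by
        intro F hF
        rw [← Finset.sum_filter, Finset.sum_const, smul_eq_mul, mul_one]
        congr 1
        ext p
        rw [mem_filter]
        exact ⟨fun h => ⟨hGQ F hF h, h⟩, fun h => h.2⟩
      rw [Finset.sum_congr rfl h2, Finset.sum_comm]
      refine Finset.sum_congr rfl fun p hp => ?_
      rw [← Finset.sum_filter, Finset.sum_const, smul_eq_mul, mul_one]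
    have h3 : ∀ p ∈ Q, (𝓕.filter fun F => p ∈ G F).card ≤
        1 + ((𝓕.filter fun F => p ∈ G F).offDiag).card := by
      intro p hp
      rw [offDiag_card]
      rcases Nat.eq_zero_or_pos (𝓕.filter fun F => p ∈ G F).card with h | h
      · rw [h]; omega
      · have h4 : (𝓕.filter fun F => p ∈ G F).card + (𝓕.filter fun F => p ∈ G F).card ≤
            1 + (𝓕.filter fun F => p ∈ G F).card * (𝓕.filter fun F => p ∈ G F).card := by
          nlinarith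
        omega
    have h5 : ∑ p ∈ Q, ((𝓕.filter fun F => p ∈ G F).offDiag).card ≤
        k * ∑ s ∈ S, (𝓕.filter fun F => s ∈ SF F).card ^ 2 := by
      -- count triples `(s, r, (F, F'))`
      have h6 : ∑ p ∈ Q, ((𝓕.filter fun F => p ∈ G F).offDiag).card =
          (Q.sigma fun p => (𝓕.filter fun F => p ∈ G F).offDiag).card := by
        rw [Finset.card_sigma]
      rw [h6]
      set T := (S.sigma fun s => (𝓕.filter fun F => s ∈ SF F) ×ˢ (𝓕.filter fun F => s ∈ SF F))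
        with hT
      have hTc : T.card = ∑ s ∈ S, (𝓕.filter fun F => s ∈ SF F).card ^ 2 := by
        rw [hT, Finset.card_sigma]
        refine Finset.sum_congr rfl fun s _ => ?_
        rw [card_product, sq]
      rw [← hTc]
      refine Finset.card_le_mul_card_image_of_maps_to
        (f := fun x : (Σ _ : V × V, κ × κ) => (⟨x.1.1, x.2⟩ : Σ _ : V, κ × κ)) ?_ k ?_
      · intro x hx
        obtain ⟨hx1, hx'⟩ := mem_sigma.1 hx
        obtain ⟨hxa, hxb, -⟩ := mem_offDiag.1 hx'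
        obtain ⟨hx2, hx3⟩ := mem_filter.1 hxa
        obtain ⟨hx4, hx5⟩ := mem_filter.1 hxb
        rw [hT, mem_sigma, mem_product, mem_filter, mem_filter]
        have a1 := mem_offDiag.1 (mem_gp.1 hx3).1
        have a2 := mem_offDiag.1 (mem_gp.1 hx5).1
        exact ⟨hS _ hx2 a1.1, ⟨hx2, a1.1⟩, ⟨hx4, a2.1⟩⟩
      · rintro ⟨s, F, F'⟩ hy
        rcases ((Q.sigma fun p => (𝓕.filter fun F => p ∈ G F).offDiag).filter
          fun x => (⟨x.1.1, x.2⟩ : Σ _ : V, κ × κ) = ⟨s, F, F'⟩).eq_empty_or_nonempty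
          with h0 | ⟨x₀, hx₀⟩
        · rw [h0]; simp
        -- one good `r₀`, all the other `r` are on the line
        have key : ∀ x ∈ ((Q.sigma fun p => (𝓕.filter fun F => p ∈ G F).offDiag).filter
            fun x => (⟨x.1.1, x.2⟩ : Σ _ : V, κ × κ) = ⟨s, F, F'⟩),
            x.1.1 = s ∧ x.2 = (F, F') ∧ (s, x.1.2) ∈ G F ∧ (s, x.1.2) ∈ G F' ∧ F ∈ 𝓕 ∧ F' ∈ 𝓕 ∧
              F ≠ F' := by
          rintro ⟨⟨s', r'⟩, F₁, F₂⟩ hx
          obtain ⟨hxs, hx7⟩ := mem_filter.1 hx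
          obtain ⟨hx1, hx'⟩ := mem_sigma.1 hxs
          obtain ⟨hxa, hxb, hx6⟩ := mem_offDiag.1 hx'
          obtain ⟨hx2, hx3⟩ := mem_filter.1 hxa
          obtain ⟨hx4, hx5⟩ := mem_filter.1 hxb
          simp only [Sigma.mk.injEq, heq_eq_eq, Prod.mk.injEq] at hx7
          obtain ⟨rfl, rfl, rfl⟩ := hx7
          exact ⟨rfl, rfl, hx3, hx5, hx2, hx4, hx6⟩
        obtain ⟨-, -, b3, b4, b5, b6, b7⟩ := key x₀ hx₀
        have c3 := mem_gp.1 b3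
        have c3' := mem_offDiag.1 c3.1
        have c4' := mem_offDiag.1 (mem_gp.1 b4).1
        calc ((Q.sigma fun p => (𝓕.filter fun F => p ∈ G F).offDiag).filter
            fun x => (⟨x.1.1, x.2⟩ : Σ _ : V, κ × κ) = ⟨s, F, F'⟩).card
            ≤ (ln (SF F) (s, x₀.1.2)).card := by
              refine Finset.card_le_card_of_injOn (fun x => x.1.2) ?_ ?_
              · intro x hx
                obtain ⟨-, -, d3, d4, -, -, -⟩ := key x hx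
                have e3 := mem_offDiag.1 (mem_gp.1 d3).1
                have e4 := mem_offDiag.1 (mem_gp.1 d4).1
                rw [mem_coe, mem_ln]
                exact ⟨e3.2.1, hline F b5 F' b6 b7 s c3'.1 c4'.1 _ c3'.2.1 c4'.2.1 _ e3.2.1 e4.2.1
                  c3'.2.2 e3.2.2⟩
              · intro x hx y hy hxy
                obtain ⟨d1, d2, -, -, -, -, -⟩ := key x hx
                obtain ⟨f1, f2, -, -, -, -, -⟩ := key y hy
                obtain ⟨⟨x1, x2⟩, x3⟩ := x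
                obtain ⟨⟨y1, y2⟩, y3⟩ := y
                simp only at d1 d2 f1 f2 hxy
                subst d1 d2 f2 hxy
                rw [f1]
          _ = lineC (SF F) s x₀.1.2 := card_ln _ _
          _ ≤ k := c3.2.2.1.le
    rw [h1]
    calc ∑ p ∈ Q, (𝓕.filter fun F => p ∈ G F).card
        ≤ ∑ p ∈ Q, (1 + ((𝓕.filter fun F => p ∈ G F).offDiag).card) := Finset.sum_le_sum h3
      _ = Q.card + ∑ p ∈ Q, ((𝓕.filter fun F => p ∈ G F).offDiag).card := by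
          rw [Finset.sum_add_distrib, Finset.sum_const, smul_eq_mul, mul_one]
      _ ≤ _ := Nat.add_le_add_left h5 _
  have hmul' : ∑ F ∈ 𝓕, ((G F).card : ℝ) ≤ Q.card +
      k * ∑ s ∈ S, ((𝓕.filter fun F => s ∈ SF F).card : ℝ) ^ 2 := by
    exact_mod_cast hmul
  calc ∑ F ∈ 𝓕, ((SF F).card : ℝ) ^ 2 ≤ ∑ F ∈ 𝓕, 2 * κ₀ * ((G F).card : ℝ) :=
        Finset.sum_le_sum hone
    _ = 2 * κ₀ * ∑ F ∈ 𝓕, ((G F).card : ℝ) := by rw [Finset.mul_sum]
    _ ≤ _ := mul_le_mul_of_nonneg_left hmul' (by positivity)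

open scoped Classical in
/-- **planar count with cells, adjacency off rich lines**: the form of `H398.cnt_flats` -/
theorem cnt_flats_rich (𝓕 : Finset κ) (SF AF : κ → Finset V) (S : Finset V)
    (hS : ∀ F ∈ 𝓕, SF F ⊆ S) (hA : ∀ F ∈ 𝓕, SF F ⊆ AF F)
    (k₁ : ℕ) (hk₁ : 1 ≤ k₁) (adj : V → V → Prop)
    (hadj : ∀ F ∈ 𝓕, ∀ s ∈ SF F, ∀ r ∈ SF F, s ≠ r → lineC (AF F) s r < k₁ → adj s r)
    (cl : V → C) (κ₀ : ℕ) (hcl : ∀ F ∈ 𝓕, ((SF F).image cl).card ≤ κ₀)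
    (m k L : ℕ) (hL : ∀ F ∈ 𝓕, ∀ p ∈ (SF F).offDiag, lineC (SF F) p.1 p.2 ≤ L)
    (hM : ∀ F ∈ 𝓕, ∀ s ∈ SF F, ∃ U : Finset V, U.card ≤ m ∧ ∀ r ∈ SF F, r ≠ s →
      (∃ F' ∈ 𝓕, F' ≠ F ∧ s ∈ SF F' ∧ r ∈ SF F') → ∃ u ∈ U, onL s u r)
    (hk : 16 * 373248 * κ₀ ≤ k) (hbig : ∀ F ∈ 𝓕, 8 * κ₀ * (m * k + 32 * L + 1) ≤ (SF F).card)
    (hrich : ∀ F ∈ 𝓕, 4 * κ₀ * (k:ℝ) ^ 2 *
      (46656 * ((AF F).card : ℝ) ^ 2 / k₁ ^ 3 + 2 * (AF F).card / k₁) ≤ ((SF F).card : ℝ) ^ 2) :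
    ∑ F ∈ 𝓕, ((SF F).card : ℝ) ^ 2 ≤
      2 * κ₀ * (S.offDiag.filter fun p => adj p.1 p.2 ∧ cl p.1 = cl p.2).card := by
  set Mp : κ → V → V → Prop := fun F s r => ∃ F' ∈ 𝓕, F' ≠ F ∧ s ∈ SF F' ∧ r ∈ SF F' with hMp
  set G : κ → Finset (V × V) := fun F =>
    (SF F).offDiag.filter fun p => cl p.1 = cl p.2 ∧ ¬ Mp F p.1 p.2 ∧ lineC (AF F) p.1 p.2 < k₁
    with hG
  set Q := S.offDiag.filter fun p => adj p.1 p.2 ∧ cl p.1 = cl p.2 with hQ
  have hdisj : (𝓕 : Set κ).PairwiseDisjoint G := by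
    intro F hF F' hF' hne
    rw [Function.onFun, Finset.disjoint_left]
    intro p hp hp'
    simp only [hG, mem_filter, mem_offDiag] at hp hp'
    exact hp.2.2.1 ⟨F', hF', hne.symm, hp'.1.1, hp'.1.2.1⟩
  have hsum : ∑ F ∈ 𝓕, ((G F).card : ℝ) ≤ Q.card := by
    have h1 : ∑ F ∈ 𝓕, (G F).card ≤ Q.card := by
      rw [← card_biUnion hdisj]
      refine card_le_card ?_
      intro p hp
      obtain ⟨F, hF, hpF⟩ := mem_biUnion.1 hp
      simp only [hG, mem_filter, mem_offDiag] at hpF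
      obtain ⟨⟨a1, a2, a3⟩, a4, -, a5⟩ := hpF
      simp only [hQ, mem_filter, mem_offDiag]
      exact ⟨⟨hS F hF a1, hS F hF a2, a3⟩, hadj F hF _ a1 _ a2 a3 a5, a4⟩
    exact_mod_cast h1
  have hone : ∀ F ∈ 𝓕, ((SF F).card : ℝ) ^ 2 ≤ 2 * κ₀ * (G F).card := by
    intro F hF
    rcases Nat.eq_zero_or_pos κ₀ with h0 | hκ
    · have := hcl F hF
      rw [h0, Nat.le_zero, card_eq_zero, image_eq_empty] at this
      rw [this, h0]; simp
    have hκr : (1:ℝ) ≤ κ₀ := by exact_mod_cast hκ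
    have hk1 : 1 ≤ k := by omega
    have hkr : (16 * 373248 * (κ₀:ℝ)) ≤ k := by exact_mod_cast hk
    have hk0 : (0:ℝ) < k := by linarith
    set g : ℝ := ((SF F).card : ℝ) with hg
    have hg0 : 0 ≤ g := Nat.cast_nonneg _
    obtain ⟨M₂, hM₂, h3⟩ := Vale.Agent.P054.T3.H398.card_multi_le (SF F) m k L hk1 (hL F hF) (Mp F)
      (hM F hF)
    rw [← hg] at h3
    have h1 := sq_card_le_classes (SF F) cl (hcl F hF)
    have h2 : ((SF F).offDiag.filter fun p => cl p.1 = cl p.2) ⊆ (G F ∪ M₂) ∪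
        ((SF F).offDiag.filter fun p => k ≤ lineC (SF F) p.1 p.2 ∨
          k₁ ≤ lineC (AF F) p.1 p.2) := by
      intro p hp
      rw [mem_filter] at hp
      by_cases h4 : k ≤ lineC (SF F) p.1 p.2 ∨ k₁ ≤ lineC (AF F) p.1 p.2
      · exact mem_union.2 (Or.inr (mem_filter.2 ⟨hp.1, h4⟩))
      by_cases h5 : Mp F p.1 p.2
      · exact mem_union.2 (Or.inl (mem_union.2 (Or.inr (hM₂ p hp.1 h5))))
      · rw [not_or, not_le, not_le] at h4
        exact mem_union.2 (Or.inl (mem_union.2 (Or.inl (mem_filter.2 ⟨hp.1, hp.2, h5, h4.2⟩))))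
    have h4 := (card_le_card h2).trans ((card_union_le _ _).trans
      (Nat.add_le_add_right (card_union_le _ _) _))
    have h5 := card_rich_pairs_le (hA F hF) k k₁ L hk1 hk₁ (hL F hF)
    rw [← hg] at h5
    obtain ⟨R, hR⟩ : ∃ R : ℝ, R = (((SF F).offDiag.filter fun p =>
      k ≤ lineC (SF F) p.1 p.2 ∨ k₁ ≤ lineC (AF F) p.1 p.2).card : ℝ) := ⟨_, rfl⟩
    rw [← hR] at h5
    have h6 : g ^ 2 ≤ κ₀ * ((((G F).card : ℝ) + M₂.card) + R + g) := by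
      rw [hg, hR]
      exact_mod_cast h1.trans (Nat.mul_le_mul_left _ (Nat.add_le_add_right h4 _))
    have h7 : κ₀ * (2 * (373248 * (g ^ 2 / k))) ≤ g ^ 2 / 8 := by
      rw [le_div_iff₀ (by norm_num : (0:ℝ) < 8)]
      have : (κ₀:ℝ) * (2 * (373248 * (g ^ 2 / k))) * 8 = (16 * 373248 * κ₀) * (g ^ 2 / k) := by
        ring
      rw [this, ← mul_div_assoc, div_le_iff₀ hk0]
      nlinarith [mul_le_mul_of_nonneg_left hkr (sq_nonneg g)]
    have h8 : (κ₀:ℝ) * (g * (m * k) + 32 * g * L + g) ≤ g ^ 2 / 8 := by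
      have h9 : (8 * κ₀ * (m * k + 32 * L + 1) : ℝ) ≤ g := by
        rw [hg]; exact_mod_cast hbig F hF
      nlinarith [mul_le_mul_of_nonneg_left h9 hg0]
    have h9 : (κ₀:ℝ) * (k ^ 2 * (46656 * ((AF F).card : ℝ) ^ 2 / k₁ ^ 3 +
        2 * (AF F).card / k₁)) ≤ g ^ 2 / 4 := by
      rw [le_div_iff₀ (by norm_num : (0:ℝ) < 4)]
      exact le_trans (le_of_eq (by ring)) (hrich F hF)
    have h10 := mul_le_mul_of_nonneg_left h3 (show (0:ℝ) ≤ κ₀ by linarith)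
    have h11 := mul_le_mul_of_nonneg_left h5 (show (0:ℝ) ≤ κ₀ by linarith)
    have e1 : (κ₀:ℝ) * ((((G F).card : ℝ) + M₂.card) + R + g) =
        κ₀ * (G F).card + κ₀ * M₂.card + κ₀ * R + κ₀ * g := by ring
    have e2 : (κ₀:ℝ) * (g * (m * k) + (373248 * (g ^ 2 / k) + 16 * g * L)) =
        κ₀ * (g * (m * k)) + κ₀ * (373248 * (g ^ 2 / k)) + κ₀ * (16 * g * L) := by ring
    have e3 : (κ₀:ℝ) * (373248 * (g ^ 2 / k) + 16 * g * L + k ^ 2 *
        (46656 * ((AF F).card : ℝ) ^ 2 / k₁ ^ 3 + 2 * (AF F).card / k₁)) =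
        κ₀ * (373248 * (g ^ 2 / k)) + κ₀ * (16 * g * L) + κ₀ * (k ^ 2 *
        (46656 * ((AF F).card : ℝ) ^ 2 / k₁ ^ 3 + 2 * (AF F).card / k₁)) := by ring
    have e4 : (κ₀:ℝ) * (g * (m * k) + 32 * g * L + g) =
        κ₀ * (g * (m * k)) + 2 * (κ₀ * (16 * g * L)) + κ₀ * g := by ring
    have e5 : (κ₀:ℝ) * (2 * (373248 * (g ^ 2 / k))) = 2 * (κ₀ * (373248 * (g ^ 2 / k))) := by ring
    rw [e1] at h6
    rw [e2] at h10
    rw [e3] at h11
    rw [e4] at h8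
    rw [e5] at h7
    linarith
  calc ∑ F ∈ 𝓕, ((SF F).card : ℝ) ^ 2 ≤ ∑ F ∈ 𝓕, 2 * κ₀ * ((G F).card : ℝ) :=
        Finset.sum_le_sum hone
    _ = 2 * κ₀ * ∑ F ∈ 𝓕, ((G F).card : ℝ) := by rw [Finset.mul_sum]
    _ ≤ 2 * κ₀ * Q.card := mul_le_mul_of_nonneg_left hsum (by positivity)

end Vale.Agent.P054.T3.H691
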